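import Mathlib.GroupTheory.Commutator.Basic
import Mathlib.GroupTheory.Subgroup.Centralizer
import Mathlib.Algebra.Group.End
import Mathlib.Tactic.Group
import Mathlib.Algebra.Group.Commute.Hom

/-! Elements acting as the identity over a field: they centralise the image of the field. The
notion passes to smaller fields for elements supported on one half, and along conjugations. -/

namespace Vale.Agent.P193.Calc.Laws

open scoped commutatorElement

variable {W P : Type*} [Group W] [Group P]

/-- The elements acting as the identity over a field. -/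
def Fix (f : W →* P) : Subgroup P := Subgroup.centralizer (Set.range f)

theorem mem_fix {f : W →* P} {z : P} : z ∈ Fix f ↔ ∀ a, Commute z (f a) := by
  rw [Fix, Subgroup.mem_centralizer_iff]
  exact ⟨fun h a => (h _ ⟨a, rfl⟩).symm, fun h => by rintro _ ⟨a, rfl⟩; exact (h a).eq.symm⟩

/-- `f` lies below `g`. -/
def Below (f g : W →* P) : Prop := ∀ a b, f ⁅a, b⁆ = ⁅f a, g b⁆

/-- A field seen after conjugation. -/
def move (x : P) (f : W →* P) : W →* P := (MulAut.conj x).toMonoidHom.comp f

theorem move_apply (x : P) (f : W →* P) (a : W) : move x f a = x * f a * x⁻¹ := rfl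

theorem move_mul (x y : P) (f : W →* P) : move (x * y) f = move x (move y f) := by
  ext a; simp only [move_apply]; group

theorem Below.move {f g : W →* P} (h : Below f g) (x : P) :
    Below (Laws.move x f) (Laws.move x g) := fun a b => by
  show MulAut.conj x (f ⁅a, b⁆) = ⁅MulAut.conj x (f a), MulAut.conj x (g b)⁆
  rw [h, map_commutatorElement]

/-- An element over a field, seen after conjugation. -/
theorem mem_fix_move {f : W →* P} (x z : P) :
    z ∈ Fix (move x f) ↔ x⁻¹ * z * x ∈ Fix f := by
  simp only [mem_fix, move_apply]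
  refine forall_congr' fun a => ⟨fun h => ?_, fun h => ?_⟩
  · have := (show Commute z _ from h).map (MulAut.conj x⁻¹).toMonoidHom
    simpa [mul_assoc] using this
  · have := (show Commute _ _ from h).map (MulAut.conj x).toMonoidHom
    simpa [mul_assoc] using this

/-- An element over a field is one over a smaller field, if it commutes there with one element
that generates normally. -/
theorem mem_fix_of_below {f g : W →* P} (h : Below f g) {z : P} (hz : z ∈ Fix g) {a : W}
    (ha : Subgroup.normalClosure {a} = ⊤) (hside : Commute z (f a)) : z ∈ Fix f := by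
  rw [mem_fix] at hz ⊢
  let S : Subgroup W := (Subgroup.centralizer {z}).comap f
  have hS : ∀ b, b ∈ S ↔ Commute z (f b) := fun b => by
    simp only [S, Subgroup.mem_comap, Subgroup.mem_centralizer_singleton_iff]
    exact ⟨fun h => h.symm, fun h => h.symm⟩
  have hn : S.Normal := ⟨fun c hc b => by
    rw [hS] at hc ⊢
    have hcc : Commute z (f ⁅c, b⁆) := by
      rw [h, commutatorElement_def]
      exact ((hc.mul_right (hz b)).mul_right hc.inv_right).mul_right (hz b).inv_right
    rw [show b * c * b⁻¹ = ⁅c, b⁆⁻¹ * c by rw [commutatorElement_def]; group, map_mul, map_inv]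
    exact hcc.inv_right.mul_right hc⟩
  intro b
  refine (hS b).1 ?_
  have : Subgroup.normalClosure {a} ≤ S :=
    Subgroup.normalClosure_le_normal (Set.singleton_subset_iff.2 ((hS a).2 hside))
  exact this (ha ▸ Subgroup.mem_top b)

/-- Two halves: commuting subgroups, one holding the elements, one a normally generating value
of each field. -/
structure Halves (P : Type*) [Group P] where
  Q₀ : Subgroup P
  Q₁ : Subgroup P
  comm : ∀ z ∈ Q₀, ∀ y ∈ Q₁, Commute z y

namespace Halves

variable (H : Halves P)

/-- The products of the two halves. -/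
def both : Subgroup P := H.Q₀ ⊔ H.Q₁

theorem conj_mem₀ {x z : P} (hx : x ∈ H.both) (hz : z ∈ H.Q₀) : x * z * x⁻¹ ∈ H.Q₀ := by
  have hle : H.both ≤ Subgroup.normalizer (H.Q₀ : Set P) := by
    refine sup_le Subgroup.le_normalizer fun y hy => ?_
    rw [Subgroup.mem_normalizer_iff]
    intro w
    constructor
    · intro hw
      rw [← (H.comm w hw y hy).eq, mul_inv_cancel_right]
      exact hw
    · intro hw
      have hc := H.comm _ hw y hy
      have e : w = y * w * y⁻¹ := mul_left_cancel ((show y * w = y * w * y⁻¹ * y by group).trans hc.eq)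
      rw [e]
      exact hw
  exact (Subgroup.mem_normalizer_iff.1 (hle hx) z).1 hz

theorem conj_mem₁ {x y : P} (hx : x ∈ H.both) (hy : y ∈ H.Q₁) : x * y * x⁻¹ ∈ H.Q₁ := by
  have h : (⟨H.Q₁, H.Q₀, fun y hy z hz => (H.comm z hz y hy).symm⟩ : Halves P).both = H.both :=
    sup_comm _ _
  exact conj_mem₀ ⟨H.Q₁, H.Q₀, fun y hy z hz => (H.comm z hz y hy).symm⟩ (h ▸ hx) hy

theorem conj_mem₀' {x z : P} (hx : x ∈ H.both) (hz : z ∈ H.Q₀) : x⁻¹ * z * x ∈ H.Q₀ := by
  simpa using H.conj_mem₀ (inv_mem hx) hz

/-- Restriction of a half element to a smaller field. -/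
theorem down {f g : W →* P} {a : W} (ha : Subgroup.normalClosure {a} = ⊤) {z : P}
    (hzQ : z ∈ H.Q₀) (hf : f a ∈ H.Q₁) (h : Below f g) (hz : z ∈ Fix g) : z ∈ Fix f :=
  mem_fix_of_below h hz ha (H.comm z hzQ _ hf)

/-- An element over a field pulls back along a move into that field. -/
theorem pull {f g : W →* P} {a : W} (ha : Subgroup.normalClosure {a} = ⊤) {x z : P}
    (hx : x ∈ H.both) (hzQ : z ∈ H.Q₀) (hg : g a ∈ H.Q₁) (h : Below (move x g) f)
    (hz : z ∈ Fix f) : x⁻¹ * z * x ∈ Fix g :=
  (mem_fix_move x z).1 (H.down ha hzQ (by rw [move_apply]; exact H.conj_mem₁ hx hg) h hz)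

/-- The pull-back of an element commuting with the move. -/
theorem pull_commute {f g : W →* P} {a : W} (ha : Subgroup.normalClosure {a} = ⊤) {x z : P}
    (hx : x ∈ H.both) (hzQ : z ∈ H.Q₀) (hg : g a ∈ H.Q₁) (h : Below (move x g) f)
    (hxz : Commute x z) (hz : z ∈ Fix f) : z ∈ Fix g := by
  have := H.pull ha hx hzQ hg h hz
  rwa [mul_assoc, ← hxz.eq, inv_mul_cancel_left] at this

end Halves

end Vale.Agent.P193.Calc.Laws
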